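import Vale.Agent.P092A2.Simp

/-!
P011I (helper65): absolute simplicity passes to a bigger field.
-/

set_option linter.all false

open Set Matrix

noncomputable section

namespace Vale.Agent.P011IT

open Vale.Agent.P092AG Vale.Agent.P092A2

variable {n : ℕ} {K Ω : Type} [Field K] [Field Ω] [Algebra K Ω]

/-- specialisation which keeps finitely many elements nonzero -/
theorem spec [IsAlgClosed K] {T : Set Ω} (hT : T.Finite) :
    ∃ (A : Subalgebra K Ω) (s : A →ₐ[K] K), (∀ t ∈ T, t ∈ A) ∧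
      ∀ a : A, a.1 ∈ T → a.1 ≠ 0 → s a ≠ 0 := by
  let A := Algebra.adjoin K (T ∪ T⁻¹)
  have : Algebra.FiniteType K A := (Subalgebra.fg_iff_finiteType A).1
    ⟨(hT.union hT.inv).toFinset, by rw [Finite.coe_toFinset]⟩
  obtain ⟨m, hm⟩ := Ideal.exists_maximal A
  obtain ⟨s, -⟩ := exists_algHom_ker (K := K) m
  refine ⟨A, s, fun t h => Algebra.subset_adjoin (Or.inl h), fun a h h0 h1 => ?_⟩
  have h2 : a * ⟨a.1⁻¹, Algebra.subset_adjoin (Or.inr (by simpa using h))⟩ = 1 :=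
    Subtype.ext (mul_inv_cancel₀ h0)
  have h3 := congrArg s h2
  rw [map_mul, h1, zero_mul, map_one] at h3
  exact zero_ne_one h3

section

variable {A : Subalgebra K Ω}

/-- value over the subalgebra -/
def eA (x : Mt n A) (p : Pl n A) : A := MvPolynomial.eval (fun ij => x ij.1 ij.2) p

theorem ev_hom {L : Type} [Field L] (f : A →+* L) (x : Mt n A) (p : Pl n A) :
    ev (x.map f) (MvPolynomial.map f p) = f (eA x p) := (MvPolynomial.map_eval f _ p).symm

theorem exists_pl {p : Pl n Ω} (h : ∀ t ∈ (p.coeffs : Set Ω), t ∈ A) :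
    ∃ q : Pl n A, MvPolynomial.map (A.val : A →+* Ω) q = p :=
  MvPolynomial.mem_range_map_iff_coeffs_subset.2 fun t ht => ⟨⟨t, h t ht⟩, rfl⟩

/-- the inclusion -/
abbrev vl (A : Subalgebra K Ω) (n : ℕ) : GL (Fin n) A →* GL (Fin n) Ω :=
  GeneralLinearGroup.map (A.val : A →+* Ω)

/-- the specialisation -/
abbrev sp (s : A →ₐ[K] K) (n : ℕ) : GL (Fin n) A →* GL (Fin n) K :=
  GeneralLinearGroup.map (s : A →+* K)

/-- constants -/
abbrev cn (A : Subalgebra K Ω) (n : ℕ) : GL (Fin n) K →* GL (Fin n) A :=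
  GeneralLinearGroup.map (algebraMap K A)

theorem vl_cn (g : GL (Fin n) K) : vl A n (cn A n g) = io K Ω n g := rfl

theorem sp_cn (s : A →ₐ[K] K) (g : GL (Fin n) K) : sp s n (cn A n g) = g :=
  Units.ext (Matrix.ext fun i j => s.commutes _)

theorem exists_gl {g : GL (Fin n) Ω} (hd : (g : Mt n Ω).det = 1) (h : ∀ i j, g.1 i j ∈ A) :
    ∃ u : GL (Fin n) A, vl A n u = g := by
  let x : Mt n A := of fun i j => ⟨g.1 i j, h i j⟩
  have e : x.det = 1 := Subtype.ext (((A.val : A →+* Ω).map_det x).trans hd)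
  exact ⟨((isUnit_iff_isUnit_det x).2 (e ▸ isUnit_one)).unit, Units.ext rfl⟩

theorem sp_zero (s : A →ₐ[K] K) {u : GL (Fin n) A} {q : Pl n A}
    (h : ev (vl A n u : Mt n Ω) (MvPolynomial.map (A.val : A →+* Ω) q) = 0) :
    ev (sp s n u : Mt n K) (MvPolynomial.map (s : A →+* K) q) = 0 := by
  have e : eA u.1 q = 0 := Subtype.ext ((ev_hom (A.val : A →+* Ω) u.1 q).symm.trans h)
  exact (ev_hom (s : A →+* K) u.1 q).trans (by rw [e, map_zero])

theorem map_van {S : Set (GL (Fin n) K)} {p : Pl n K} (h : p ∈ van S) :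
    MvPolynomial.map (algebraMap K Ω) p ∈ van (io K Ω n '' S) := by
  rintro _ ⟨g, hg, rfl⟩
  rw [io_val, ev_map, h g hg, map_zero]

theorem sp_zcl (s : A →ₐ[K] K) {S : Set (GL (Fin n) K)} {u : GL (Fin n) A}
    (h : vl A n u ∈ zcl (io K Ω n '' S)) : sp s n u ∈ zcl S := fun p hp => by
  have e := sp_zero s (u := u) (q := MvPolynomial.map (algebraMap K A) p) (by
    rw [MvPolynomial.map_map]; exact h _ (map_van hp))
  rwa [MvPolynomial.map_map, AlgHom.comp_algebraMap, Algebra.algebraMap_self,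
    MvPolynomial.map_id] at e

end

theorem prime_io [IsAlgClosed K] {S : Set (GL (Fin n) K)} (h : (van S).IsPrime) :
    (van (io K Ω n '' S)).IsPrime := by
  refine ⟨fun e => h.ne_top ((Ideal.eq_top_iff_one _).2 fun g hg => ?_), fun {p q} e => ?_⟩
  · have := (e.ge (Submodule.mem_top (x := 1))) _ ⟨g, hg, rfl⟩
    rw [map_one] at this
    exact (one_ne_zero this).elim
  by_contra hn
  simp only [mem_van, not_or, not_forall] at hn
  obtain ⟨⟨_, ⟨a, ha, rfl⟩, h1⟩, _, ⟨b, hb, rfl⟩, h2⟩ := hn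
  obtain ⟨A, s, hA, hs⟩ := spec (K := K) ((p.coeffs.finite_toSet.union q.coeffs.finite_toSet).union
    (toFinite {ev (io K Ω n a : Mt n Ω) p, ev (io K Ω n b : Mt n Ω) q}))
  obtain ⟨p, rfl⟩ := exists_pl (A := A) fun t ht => hA t (Or.inl (Or.inl ht))
  obtain ⟨q, rfl⟩ := exists_pl (A := A) fun t ht => hA t (Or.inl (Or.inr ht))
  have e1 : ∀ (g : GL (Fin n) K) (r : Pl n A), ev (io K Ω n g : Mt n Ω)
    (MvPolynomial.map (A.val : A →+* Ω) r) = (eA (cn A n g).1 r).1 :=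
    fun g r => ev_hom (A.val : A →+* Ω) (cn A n g).1 r
  have e2 : ∀ (g : GL (Fin n) K) (r : Pl n A), ev (g : Mt n K)
    (MvPolynomial.map (s : A →+* K) r) = s (eA (cn A n g).1 r) := fun g r => by
    conv_lhs => rw [← sp_cn s g]
    exact ev_hom (s : A →+* K) (cn A n g).1 r
  rcases h.mem_or_mem (x := MvPolynomial.map (s : A →+* K) p) (y := MvPolynomial.map (s : A →+* K) q)
    (fun g hg => by
      rw [← map_mul, ← sp_cn s g]
      exact sp_zero s (by rw [map_mul]; exact e _ ⟨g, hg, rfl⟩)) with h3 | h3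
  · exact hs _ (Or.inr (Or.inl (e1 a p).symm)) (e1 a p ▸ h1) ((e2 a p).symm.trans (h3 a ha))
  · exact hs _ (Or.inr (Or.inr (e1 b q).symm)) (e1 b q ▸ h2) ((e2 b q).symm.trans (h3 b hb))

/-- the ideal of the extended set is the extended ideal -/
theorem van_io (S : Set (GL (Fin n) K)) :
    van (io K Ω n '' S) = (van S).map (MvPolynomial.map (algebraMap K Ω)) := by
  classical
  refine le_antisymm (fun p hp => ?_) (Ideal.map_le_iff_le_comap.2 fun p hp => map_van hp)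
  let b := Module.Basis.ofVectorSpace K Ω
  let q : _ → Pl n K := fun i => ∑ m ∈ p.support, MvPolynomial.monomial m (b.repr (p.coeff m) i)
  have h1 : ∀ i, q i ∈ van S := fun i g hg => by
    have h2 := congrArg (b.coord i) (hp _ ⟨g, hg, rfl⟩)
    rw [map_zero, ev, MvPolynomial.eval_eq, map_sum] at h2
    rw [← h2, map_sum]
    refine Finset.sum_congr rfl fun m _ => ?_
    rw [ev, MvPolynomial.eval_monomial, mul_comm, mul_comm (p.coeff m), ← smul_eq_mul,
      ← Module.Basis.coord_apply, ← map_smul, Algebra.smul_def, Finsupp.prod, map_prod]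
    simp only [map_pow]
    rfl
  let I := p.support.biUnion fun m => (b.repr (p.coeff m)).support
  have h3 : p = ∑ i ∈ I, MvPolynomial.C (b i) * MvPolynomial.map (algebraMap K Ω) (q i) := by
    ext m
    simp only [MvPolynomial.coeff_sum, MvPolynomial.coeff_C_mul, MvPolynomial.coeff_map, q,
      MvPolynomial.coeff_monomial, Finset.sum_ite_eq']
    by_cases hm : m ∈ p.support
    · simp only [hm, if_true]
      conv_lhs => rw [← b.linearCombination_repr (p.coeff m), Finsupp.linearCombination_apply,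
        Finsupp.sum_of_support_subset _ (s := I)
          (Finset.subset_biUnion_of_mem (fun m => (b.repr (p.coeff m)).support) hm)
          (fun i a => a • b i) (fun i _ => zero_smul _ _)]
      exact Finset.sum_congr rfl fun i _ => by rw [Algebra.smul_def, mul_comm]
    · simp [hm, MvPolynomial.notMem_support_iff.1 hm]
  rw [h3]
  exact Ideal.sum_mem _ fun i _ => Ideal.mul_mem_left _ _ (Ideal.mem_map_of_mem _ (h1 i))

variable {k : Type} [Field k] [Algebra k K] {𝔾 : Subgroup (GL (Fin n) K)}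

/-- the centre is finite -/
theorem cen_finite (h : AbsSimple k 𝔾) : {z | z ∈ 𝔾 ∧ ∀ g ∈ 𝔾, g * z = z * g}.Finite := by
  rcases finite_or_dense h (N := 𝔾 ⊓ Subgroup.centralizer 𝔾) inf_le_left subset_zcl subset_rfl
    (fun g hg x hx => by rw [hx.2 g hg, mul_inv_cancel_right]; exact hx) with h1 | h1
  · exact h1
  · obtain ⟨a, ha, b, hb, h2⟩ := h.ncomm
    exact (h2 (Units.ext (eq_zcl (PF.mulE (pf_c a) PF.entry) (PF.mulE PF.entry (pf_c a))
      (fun s hs => by rw [← Units.val_mul, ← Units.val_mul, hs.2 a ha]) (h1 hb)))).elim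

theorem io_det (h : AbsSimple k 𝔾) : ∀ g ∈ 𝔾.map (io K Ω n), (g : Mt n Ω).det = 1 := by
  rintro _ ⟨g, hg, rfl⟩
  rw [io_val, ← RingHom.mapMatrix_apply, ← RingHom.map_det, abs_det h g hg, map_one]

variable (Ω) in
/-- the points over the bigger field -/
def bc (h : AbsSimple k 𝔾) : Subgroup (GL (Fin n) Ω) := zgrp (𝔾.map (io K Ω n)) (io_det h)

theorem coe_bc (h : AbsSimple k 𝔾) : (bc Ω h : Set (GL (Fin n) Ω)) = zcl (io K Ω n '' 𝔾) := rfl

theorem van_bc (h : AbsSimple k 𝔾) : van (bc Ω h : Set (GL (Fin n) Ω)) =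
    (van (𝔾 : Set (GL (Fin n) K))).map (MvPolynomial.map (algebraMap K Ω)) := by
  rw [coe_bc, van_zcl, van_io]

theorem simple_bc [IsAlgClosed K] (h : AbsSimple k 𝔾) (N : Subgroup (GL (Fin n) Ω))
    (h1 : N ≤ bc Ω h) (h2 : ZCl (N : Set (GL (Fin n) Ω)))
    (h3 : ∀ g ∈ bc Ω h, ∀ x ∈ N, g * x * g⁻¹ ∈ N) :
    N = bc Ω h ∨ (N : Set (GL (Fin n) Ω)).Finite := by
  refine or_iff_not_imp_left.2 fun hn => ((cen_finite h).image (io K Ω n)).subset fun x hx => ?_
  obtain ⟨a, ha, h4⟩ : ∃ a ∈ 𝔾, io K Ω n a ∉ N := by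
    by_contra h4
    push Not at h4
    exact hn (le_antisymm h1 (zcl_subset h2 (by rintro _ ⟨g, hg, rfl⟩; exact h4 g hg)))
  obtain ⟨f, hf, h5⟩ : ∃ f ∈ van (N : Set (GL (Fin n) Ω)), ev (io K Ω n a : Mt n Ω) f ≠ 0 := by
    by_contra h5
    push Not at h5
    exact h4 (h2 _ h5)
  obtain ⟨A, s, hA, hs⟩ := spec (K := K) (((f.coeffs.finite_toSet.union
    (finite_range fun e : Fin n × Fin n => x.1 e.1 e.2)).union (((cen_finite h).prod
      (finite_univ (α := Fin n × Fin n))).image fun e =>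
        x.1 e.2.1 e.2.2 - algebraMap K Ω (e.1.1 e.2.1 e.2.2))).insert (ev (io K Ω n a : Mt n Ω) f))
  obtain ⟨f, rfl⟩ := exists_pl (A := A) fun t ht => hA t (Or.inr (Or.inl (Or.inl ht)))
  obtain ⟨u, rfl⟩ := exists_gl (A := A) (det_zcl (io_det h) (h1 hx)) fun i j =>
    hA _ (Or.inr (Or.inl (Or.inr ⟨(i, j), rfl⟩)))
  let M := (N.comap (vl A n)).map (sp s n)
  have hM : M ≤ 𝔾 := by
    rintro _ ⟨v, hv, rfl⟩
    exact h.closed _ (sp_zcl s (h1 hv))
  have hc : ∀ g ∈ 𝔾, ∀ y ∈ M, g * y * g⁻¹ ∈ M := by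
    rintro g hg _ ⟨v, hv, rfl⟩
    refine ⟨cn A n g * v * (cn A n g)⁻¹, ?_, by rw [map_mul, map_mul, map_inv, sp_cn]⟩
    show vl A n _ ∈ N
    rw [map_mul, map_mul, map_inv]
    exact h3 _ (subset_zcl ⟨g, hg, rfl⟩) _ hv
  have hu : sp s n u ∈ M := ⟨u, hx, rfl⟩
  rcases finite_or_dense h hM subset_zcl subset_rfl hc with h6 | h6
  · have h7 : sp s n u ∈ {z | z ∈ 𝔾 ∧ ∀ g ∈ 𝔾, g * z = z * g} := ⟨hM hu, fun g hg =>
      comm_of_finite h.conn h6 (fun g hg => M.mul_mem (hc g hg _ hu) (M.inv_mem hu)) hg⟩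
    refine ⟨_, h7, Units.ext (Matrix.ext fun i j => ?_)⟩
    by_contra h8
    refine hs (u.1 i j - algebraMap K A (s (u.1 i j))) (Or.inr (Or.inr
      ⟨(sp s n u, (i, j)), ⟨h7, trivial⟩, rfl⟩)) (fun e => h8 (sub_eq_zero.1 e).symm) ?_
    rw [map_sub, s.commutes]
    exact sub_self _
  · have e1 := ev_hom (A.val : A →+* Ω) (cn A n a).1 f
    refine (hs (eA (cn A n a).1 f) (Or.inl e1.symm) (fun e => h5 (e1.trans e)) ?_).elim
    refine (ev_hom (s : A →+* K) (cn A n a).1 f).symm.trans ?_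
    have h8 := h6 ha (MvPolynomial.map (s : A →+* K) f) (by
      rintro _ ⟨v, hv, rfl⟩
      exact sp_zero s (hf _ hv))
    rwa [← sp_cn s a] at h8

/-- **absolute simplicity passes to a bigger field** -/
theorem abs_bc [IsAlgClosed K] [Algebra k Ω] [IsScalarTower k K Ω] (h : AbsSimple k 𝔾) :
    AbsSimple k (bc Ω h) := by
  refine ⟨zcl_closed, van_zcl (S := io K Ω n '' 𝔾) ▸ prime_io h.conn, ?_, ?_, simple_bc h⟩
  · refine (van_bc h).le.trans ((Ideal.map_mono h.defd).trans ?_)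
    rw [Ideal.map_span]
    refine Ideal.span_mono ?_
    rintro _ ⟨_, ⟨hp, p, rfl⟩, rfl⟩
    exact ⟨(van_bc h).ge (Ideal.mem_map_of_mem _ hp), p, by
      rw [MvPolynomial.map_map, ← IsScalarTower.algebraMap_eq]⟩
  · obtain ⟨a, ha, b, hb, h1⟩ := h.ncomm
    exact ⟨_, subset_zcl ⟨a, ha, rfl⟩, _, subset_zcl ⟨b, hb, rfl⟩, fun e =>
      h1 (io_inj (R := Ω) (by rw [map_mul, map_mul]; exact e))⟩

end Vale.Agent.P011IT
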