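import Vale.Agent.P092A2.Simp
import Mathlib.RingTheory.Spectrum.Prime.Chevalley

/-!
P011I (helper65): the image of a polynomial homomorphism is closed.
-/

set_option linter.all false

open Set Matrix MvPolynomial

noncomputable section

namespace Vale.Agent.P011IT

open Vale.Agent.P092AG Vale.Agent.P092A2

/-- generic points extend -/
theorem ext_pt {K B A : Type} [Field K] [IsAlgClosed K] [CommRing B] [CommRing A] [IsDomain A]
    [Algebra K B] [Algebra K A] [IsNoetherianRing B] [Algebra.FiniteType K A] (f : B →ₐ[K] A) :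
    ∃ b, f b ≠ 0 ∧ ∀ χ : B →ₐ[K] K, (∀ a, f a = 0 → χ a = 0) → χ b ≠ 0 →
      ∃ ψ : A →ₐ[K] K, ∀ a, ψ (f a) = χ a := by
  have h1 : (f : B →+* A).FiniteType := RingHom.FiniteType.of_comp_finiteType
    (f := algebraMap K B) (by
      rw [f.comp_algebraMap]; exact RingHom.finiteType_algebraMap.2 inferInstance)
  obtain ⟨S, hS⟩ := PrimeSpectrum.exists_constructibleSetData_iff.2
    (PrimeSpectrum.isConstructible_range_comap (RingHom.FinitePresentation.of_finiteType.1 h1))
  obtain ⟨C, hC, h2, h3⟩ := mem_iUnion₂.1 (hS.ge ⟨⟨⊥, Ideal.isPrime_bot⟩, rfl⟩)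
  refine ⟨C.f, fun e => h3 (singleton_subset_iff.2 e), fun χ h4 h5 => ?_⟩
  have hm : (RingHom.ker χ).IsMaximal :=
    RingHom.ker_isMaximal_of_surjective χ fun c => ⟨algebraMap K B c, by simp⟩
  obtain ⟨P, hP⟩ := hS.le (mem_iUnion₂.2 ⟨C, hC, show (⟨RingHom.ker χ, hm.isPrime⟩ :
    PrimeSpectrum B) ∈ C.toSet from ⟨fun a ha => h4 a (h2 ha), fun e => h5 (e rfl)⟩⟩)
  obtain ⟨M, hM, h6⟩ := P.1.exists_le_maximal P.2.ne_top
  obtain ⟨ψ, rfl⟩ := exists_algHom_ker (K := K) M
  refine ⟨ψ, fun a => ?_⟩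
  have h7 : a - algebraMap K B (χ a) ∈ (PrimeSpectrum.comap (f : B →+* A) P).asIdeal := by
    rw [hP]; simp [RingHom.mem_ker]
  simpa [RingHom.mem_ker, sub_eq_zero] using h6 h7

/-- the image of an irreducible variety contains an open part of its closure -/
theorem img_open {K σ τ : Type} [Field K] [IsAlgClosed K] [Finite σ] [Finite τ]
    {I : Ideal (MvPolynomial σ K)} (hI : I.IsPrime) (P : τ → MvPolynomial σ K) :
    ∃ b : MvPolynomial τ K, aeval P b ∉ I ∧ ∀ x : τ → K, (∀ q, aeval P q ∈ I → eval x q = 0) →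
      eval x b ≠ 0 → ∃ y : σ → K, (∀ p ∈ I, eval y p = 0) ∧ ∀ t, eval y (P t) = x t := by
  obtain ⟨b, h1, h2⟩ := ext_pt ((Ideal.Quotient.mkₐ K I).comp (aeval P))
  refine ⟨b, fun e => h1 (Ideal.Quotient.eq_zero_iff_mem.2 e), fun x h3 h4 => ?_⟩
  obtain ⟨ψ, h5⟩ := h2 (aeval x) (fun a e => h3 a (Ideal.Quotient.eq_zero_iff_mem.1 e)) h4
  have h6 : ∀ p, eval (fun s => ψ (Ideal.Quotient.mkₐ K I (X s))) p =
      ψ (Ideal.Quotient.mkₐ K I p) := fun p =>
    congrFun (congrArg DFunLike.coe (aeval_unique (ψ.comp (Ideal.Quotient.mkₐ K I))).symm) p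
  refine ⟨_, fun p hp => (h6 p).trans ?_, fun t => (h6 _).trans ?_⟩
  · rw [show Ideal.Quotient.mkₐ K I p = 0 from Ideal.Quotient.eq_zero_iff_mem.2 hp, map_zero]
  · simpa using h5 (X t)

variable {m n : ℕ} {K : Type} [Field K]

theorem ev_comp (P : Fin n × Fin n → Pl m K) {y : Mt m K} {x : Mt n K}
    (h : ∀ i j, x i j = ev y (P (i, j))) (q : Pl n K) : ev y (aeval P q) = ev x q := by
  induction q using MvPolynomial.induction_on with
  | C c => rw [algHom_C, algebraMap_eq, ev_C, ev_C]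
  | add p q hp hq => rw [map_add, map_add, map_add, hp, hq]
  | mul_X p e hp => rw [map_mul, map_mul, map_mul, hp, aeval_X, ev_X, h]

/-- a subgroup which contains an open part of an irreducible group is the whole group -/
theorem le_of_open {G R : Subgroup (GL (Fin n) K)} (h : (van (G : Set (GL (Fin n) K))).IsPrime)
    {b : Pl n K} (hb : b ∉ van (G : Set (GL (Fin n) K)))
    (hR : ∀ g ∈ G, ev (g : Mt n K) b ≠ 0 → g ∈ R) : G ≤ R := fun x hx => by
  obtain ⟨c, hc⟩ := (PF.of b).comp (PF.mulE (pf_c (x : Mt n K)) PF.entry)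
  have h1 : c ∉ van (G : Set (GL (Fin n) K)) := fun e => hb fun g hg => by
    have : ev (x.1 * (x⁻¹ * g).1 : Mt n K) b = 0 :=
      (hc _).trans (e _ (G.mul_mem (G.inv_mem hx) hg))
    rwa [← Units.val_mul, mul_inv_cancel_left] at this
  by_contra h2
  refine (h.mem_or_mem (x := b) (y := c) fun g hg => ?_).elim hb h1
  rw [map_mul, ← hc]
  by_contra h3
  rw [mul_eq_zero, not_or] at h3
  exact h2 (by simpa using R.mul_mem (hR _ (G.mul_mem hx hg) h3.2) (R.inv_mem (hR g hg h3.1)))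

variable {H : Subgroup (GL (Fin m) K)} (π : H →* GL (Fin n) K) (P : Fin n × Fin n → Pl m K)
  (hP : ∀ (h : H) i j, (π h).1 i j = ev h.1.1 (P (i, j)))

include hP

theorem mem_van_range {q : Pl n K} : q ∈ van (π.range : Set (GL (Fin n) K)) ↔
    aeval P q ∈ van (H : Set (GL (Fin m) K)) :=
  ⟨fun h g hg => (ev_comp P (hP ⟨g, hg⟩) q).trans (h _ ⟨⟨g, hg⟩, rfl⟩), by
    rintro h _ ⟨g, rfl⟩
    exact (ev_comp P (hP g) q).symm.trans (h _ g.2)⟩

theorem prime_range (h : (van (H : Set (GL (Fin m) K))).IsPrime) :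
    (van (π.range : Set (GL (Fin n) K))).IsPrime := by
  rw [show van (π.range : Set (GL (Fin n) K)) = (van (H : Set (GL (Fin m) K))).comap (aeval P) from
    Ideal.ext fun q => mem_van_range π P hP]
  exact Ideal.comap_isPrime _ _

/-- **the image is closed** -/
theorem zcl_range [IsAlgClosed K] (hc : ZCl (H : Set (GL (Fin m) K)))
    (h : (van (H : Set (GL (Fin m) K))).IsPrime) (hd : ∀ g ∈ H, (g : Mt m K).det = 1)
    (hd' : ∀ g ∈ π.range, (g : Mt n K).det = 1) : ZCl (π.range : Set (GL (Fin n) K)) := by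
  obtain ⟨b, h1, h2⟩ := img_open h P
  refine le_of_open (G := zgrp π.range hd') (b := b)
    (van_zcl (S := (π.range : Set (GL (Fin n) K))) ▸ prime_range π P hP h)
    (fun e => h1 ((mem_van_range π P hP).1 (van_zcl.le e))) fun g hg h3 => ?_
  obtain ⟨y, h4, h5⟩ := h2 (fun e => g.1 e.1 e.2) (fun q e => hg q ((mem_van_range π P hP).2 e)) h3
  let x : Mt m K := of fun i j => y (i, j)
  obtain ⟨p, hp⟩ := (PF.det (PF.entry (n := m) (R := K))).sub (PF.const 1)
  have h6 : x.det = 1 := sub_eq_zero.1 ((hp x).trans (h4 p fun g hg =>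
    (hp _).symm.trans (sub_eq_zero.2 (hd g hg))))
  have h7 : IsUnit x := (isUnit_iff_isUnit_det x).2 (h6 ▸ isUnit_one)
  exact ⟨⟨h7.unit, hc _ h4⟩, Units.ext (Matrix.ext fun i j => (hP _ i j).trans (h5 (i, j)))⟩

/-- **IMG**: a nontrivial polynomial homomorphism from a closed connected group into an absolutely
simple group is onto if its image is normalised by a dense set, or is dense -/
theorem range_eq [IsAlgClosed K] {k : Type} [Field k] [Algebra k K] {G : Subgroup (GL (Fin n) K)}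
    (hG : AbsSimple k G) (hc : ZCl (H : Set (GL (Fin m) K)))
    (h : (van (H : Set (GL (Fin m) K))).IsPrime) (hd : ∀ g ∈ H, (g : Mt m K).det = 1)
    (h1 : π.range ≤ G) (h2 : (G : Set (GL (Fin n) K)) ⊆ zcl π.range) : π.range = G :=
  le_antisymm h1 fun g hg => zcl_range π P hP hc h hd (fun g hg => abs_det hG g (h1 hg)) g (h2 hg)

end Vale.Agent.P011IT
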