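import Vale.Agent.P011IT.Pts
import Vale.Agent.P011IT.Img
import Vale.Agent.P011UTS.Zar
import Vale.Agent.P011I.Defs

/-!
P011I (helper65): simply connected Chevalley groups are absolutely simple; homomorphisms from them.
-/

set_option linter.all false

open Set Matrix

noncomputable section

namespace Vale.Agent.P011IT

open Vale.Agent.P092AG Vale.Agent.P092A2 Vale.Agent.P011L Vale.Agent.P183CH
  Vale.Agent.P183CH.Chev Vale.Agent.P011U Vale.Agent.P011UH Vale.Agent.P011UTS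

theorem cen_rg {R : RS} {K G : Type} [Field K] [Group G] {Γ : RG R K G} (hΓ : Γ.Ok) (hR : R.Ok)
    {z : G} (h : z ∈ Subgroup.center G) : z ∈ Γ.T ∧ z ^ R.A.det = 1 := by
  have h2 : ∀ g, z * g * z⁻¹ = g := fun g => by
    rw [← Subgroup.mem_center_iff.1 h, mul_inv_cancel_right]
  have ht := P011UB.mem_T_of_nm hΓ hR (g := z) (fun u hu => by rwa [h2]) fun u hu => by rwa [h2]
  exact ⟨ht, hΓ.det_chi hR ht fun i => hΓ.chi_eq hR (hR.simple i) ht (c := 1) (h2 _)⟩

theorem x_ncen {R : RS} {K G : Type} [Field K] [Group G] {Γ : RG R K G} (hΓ : Γ.Ok) (hR : R.Ok)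
    (i : Fin R.r) : Γ.x (R.α i) 1 ∉ Subgroup.center G := fun h => by
  have h1 := (hΓ.tri _ (RG.x_mem (hR.simple i) (RS.α_nonneg i) 1) _ (inv_mem (cen_rg hΓ hR h).1)
    (by rw [mul_inv_cancel]; exact one_mem _)).1
  exact one_ne_zero (hΓ.x_inj hR (hR.simple i) (h1.trans (hΓ.x_zero (hR.simple i)).symm))

variable {D : Chev} {K : Type} [Field K]

theorem cen_grp : (Subgroup.center (D.grp K) : Set (D.grp K)).Finite := by
  have hR := R_ok D
  have h1 : {c : K | c ^ D.R.A.det.natAbs = 1}.Finite :=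
    (Polynomial.nthRoots D.R.A.det.natAbs (1 : K)).finite_toSet.subset fun c hc =>
      (Polynomial.mem_nthRoots (Int.natAbs_pos.2 hR.det)).2 hc
  refine Finite.of_finite_image (f := fun z => z.1.1) (((Finite.pi' fun _ : Fin D.n => h1).image
    diagonal).subset ?_) fun a _ b _ e => Subtype.ext (Units.ext e)
  rintro _ ⟨z, hz, rfl⟩
  obtain ⟨h2, h3⟩ := cen_rg GG_ok hR hz
  obtain ⟨d, hd⟩ := GG_mat.diag_T h2
  refine ⟨d, fun a => ?_, hd.symm⟩
  have h4 := congrArg (D.nat K) (pow_natAbs_eq_one.2 h3)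
  rw [map_pow, hd, map_one, diagonal_pow, ← diagonal_one] at h4
  exact congrFun (diagonal_injective h4) a

theorem pf_ev (p : Pl D.n K) : (fun g : D.grp K => P092AG.ev g.1.1 p) ∈ P011UTS.PF D K := by
  induction p using MvPolynomial.induction_on with
  | C c =>
    simp only [ev_C]
    exact (P011UTS.PF D K).algebraMap_mem c
  | add p q hp hq =>
    simp only [map_add]
    exact (P011UTS.PF D K).add_mem hp hq
  | mul_X p e hp =>
    obtain ⟨i, j⟩ := e
    simp only [map_mul, ev_X]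
    exact (P011UTS.PF D K).mul_mem hp (pf_id i j)

theorem grp_prime [Infinite K] : (van (D.grp K : Set (GL (Fin D.n) K))).IsPrime := by
  refine ⟨fun e => ?_, fun {p q} e => ?_⟩
  · have := (e.ge (Submodule.mem_top (x := 1))) _ (one_mem _)
    rw [map_one] at this
    exact one_ne_zero this
  by_contra hn
  simp only [mem_van, not_or, not_forall] at hn
  obtain ⟨⟨a, ha, h1⟩, b, hb, h2⟩ := hn
  obtain ⟨g, hg⟩ := irr (pf_ev p) (pf_ev q) (a := ⟨a, ha⟩) (b := ⟨b, hb⟩) h1 h2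
  exact hg ((map_mul _ _ _).symm.trans (e _ g.2))

theorem grp_closed [Infinite K] (hD : SC D) : ZCl (D.grp K : Set (GL (Fin D.n) K)) := fun g hg => by
  obtain ⟨g', e⟩ := Zc.mem hD (M := g.1) fun p hp => hg p fun x hx => hp ⟨x, hx⟩
  exact Units.ext e ▸ g'.2

theorem grp_det : ∀ g ∈ D.grp K, (g : Mt D.n K).det = 1 := fun g hg => det_grp ⟨g, hg⟩

/-- a simply connected Chevalley group is absolutely simple -/
theorem abs_grp [Infinite K] (hD : SC D) : AbsSimple K (D.grp K) := by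
  refine ⟨grp_closed hD, grp_prime, fun p hp => Ideal.subset_span ⟨hp, p, by
    rw [Algebra.algebraMap_self, MvPolynomial.map_id]⟩, ?_, fun N h1 _ h2 => ?_⟩
  · by_contra hn
    push Not at hn
    exact x_ncen (GG_ok (D := D) (k := K)) (R_ok D) ⟨0, (R_ok D).pos⟩
      (Subgroup.mem_center_iff.2 fun g => Subtype.ext (hn _ g.2 _ (Subtype.prop _)))
  · by_cases hc : N.subgroupOf (D.grp K) ≤ Subgroup.center _
    · exact Or.inr ((cen_grp.image Subtype.val).subset fun x hx => ⟨⟨x, h1 hx⟩, hc hx, rfl⟩)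
    · exact Or.inl (le_antisymm h1 (Subgroup.subgroupOf_eq_top.1 (psimple GG_ok (R_ok D) _
        ⟨fun x hx g => h2 _ g.2 _ hx⟩ hc)))

/-- the kernel of a nontrivial homomorphism is central and finite -/
theorem ker_cen [Infinite K] {G : Type} [Group G] (π : D.grp K →* G) (h : ∃ g, π g ≠ 1) :
    π.ker ≤ Subgroup.center _ := by
  by_contra hn
  obtain ⟨g, hg⟩ := h
  exact hg ((psimple GG_ok (R_ok D) _ π.normal_ker hn).ge (Subgroup.mem_top g))

theorem ker_fin [Infinite K] {G : Type} [Group G] (π : D.grp K →* G) (h : ∃ g, π g ≠ 1) :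
    Finite π.ker := cen_grp.subset (ker_cen π h)

theorem ap_ev {m n : ℕ} (P : Matrix (Fin n) (Fin n) (Pl m K)) (x : Mt m K) (i j : Fin n) :
    P011I.ap P x i j = P092AG.ev x (P i j) := rfl

/-- **IMG**: a polynomial homomorphism with a dense image is onto -/
theorem onto [IsAlgClosed K] (hD : SC D) {k : Type} [Field k] [Algebra k K] {n : ℕ}
    {G : Subgroup (GL (Fin n) K)} (hG : AbsSimple k G) (π : D.grp K →* G)
    {P : Matrix (Fin n) (Fin n) (Pl D.n K)} (hP : ∀ h, (π h).1.1 = P011I.ap P h.1.1)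
    (hd : ∀ p : Pl n K, (∀ h, P092AG.ev (π h).1.1 p = 0) → ∀ g : G, P092AG.ev g.1.1 p = 0) :
    Function.Surjective π := fun g => by
  obtain ⟨h, e⟩ := (range_eq (G.subtype.comp π) (fun e => P e.1 e.2)
    (fun h i j => congrFun₂ (hP h) i j) hG (grp_closed hD) grp_prime grp_det
    (by rintro _ ⟨h, rfl⟩; exact (π h).2)
    fun g hg p hp => hd p (fun h => hp _ ⟨h, rfl⟩) ⟨g, hg⟩).ge g.2
  exact ⟨h, Subtype.ext e⟩

/-- everything in `CIso` but the centrality of the kernel -/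
theorem ciso [IsAlgClosed K] (hD : SC D) {k : Type} [Field k] [Algebra k K] {n : ℕ}
    {G : Subgroup (GL (Fin n) K)} (hG : AbsSimple k G) (π : D.grp K →* G)
    {P : Matrix (Fin n) (Fin n) (Pl D.n K)} (hP : ∀ h, (π h).1.1 = P011I.ap P h.1.1)
    (hd : ∀ p : Pl n K, (∀ h, P092AG.ev (π h).1.1 p = 0) → ∀ g : G, P092AG.ev g.1.1 p = 0)
    (hc : ∀ (A : Type) [CommRing A] [Algebra K A] (g h : GL (Fin D.n) A), P011I.Pt (D.grp K) g →
      P011I.Pt (D.grp K) h → P011I.ap P g.1 = 1 → g * h = h * g) : P011I.CIso π P := by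
  have h1 := onto hD hG π hP hd
  refine ⟨zcl_iff.2 (grp_closed hD), vanish_eq (𝔾 := D.grp K) ▸ grp_prime, hP, h1,
    ker_fin π ?_, hc⟩
  by_contra hn
  push Not at hn
  obtain ⟨a, ha, b, hb, h2⟩ := hG.ncomm
  obtain ⟨x, hx⟩ := h1 ⟨a, ha⟩
  exact h2 (by rw [show a = 1 from congrArg Subtype.val (hx.symm.trans (hn x)), one_mul, mul_one])

end Vale.Agent.P011IT
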