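import Vale.Agent.P011I.IF
import Vale.Agent.P011IT.Grp

/-!
P011I (helper65): the rows IMG, UPF, PRM.
-/

set_option linter.all false

open Set Matrix MvPolynomial

noncomputable section

namespace Vale.Agent.P011IT

open Vale.Agent.P092AG Vale.Agent.P092A2 Vale.Agent.P092TO Vale.Agent.P011I Vale.Agent.P011L

theorem prm : PRM := fun _ _ _ _ => grp_prime

theorem exists_lr {K J : Type} [Field K] [Fintype J] (a c : Matrix J J K)
    (q : MvPolynomial (J × J) K) : ∃ q' : MvPolynomial (J × J) K, ∀ y : Matrix J J K,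
      eval (fun e => y e.1 e.2) q' = eval (fun e => (a * y * c) e.1 e.2) q := by
  refine ⟨aeval (fun e => ∑ v, (∑ u, C (a e.1 u) * X (u, v)) * C (c v e.2)) q, fun y => ?_⟩
  refine (comp_aeval_apply _ (aeval fun e : J × J => y e.1 e.2) q).trans ?_
  exact congrArg (aeval · q) (funext fun e => by simp [mul_apply])

theorem img : IMG := fun Ω _ _ m H hc hd hp J _ _ ρ hρ x hx h => by
  choose P hP using hρ
  have h0 : ∀ (g : H) q, ev g.1.1 (aeval (fun e : J × J => P e.1 e.2) q) =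
      eval (fun e => ρ g e.1 e.2) q := fun g q =>
    (comp_aeval_apply _ (aeval fun e : Fin m × Fin m => g.1.1 e.1 e.2) q).trans
      (congrArg (aeval · q) (funext fun e => (hP e.1 e.2 g).symm))
  obtain ⟨b, h1, h2⟩ := img_open hp fun e : J × J => P e.1 e.2
  have h3 : ∀ (a : Matrix J J Ω) (g : H) (q : MvPolynomial (J × J) Ω),
      (∀ g, eval (fun e => (a * ρ g) e.1 e.2) q = 0) →
      eval (fun e => (a * x * ρ g) e.1 e.2) q = 0 := fun a g q hq => by
    obtain ⟨q', e⟩ := exists_lr a (ρ g) q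
    rw [← e]
    exact h q' fun g' => by rw [e, mul_assoc, ← map_mul]; exact hq _
  obtain ⟨g, hg⟩ : ∃ g : H, eval (fun e => (x * ρ g) e.1 e.2) b ≠ 0 := by
    by_contra hn
    push Not at hn
    let I : ℕ → Ideal (MvPolynomial (J × J) Ω) := fun j =>
      ⨅ g : H, RingHom.ker (eval fun e => (x ^ j * ρ g) e.1 e.2)
    have hI : ∀ j q, q ∈ I j ↔ ∀ g : H, eval (fun e => (x ^ j * ρ g) e.1 e.2) q = 0 :=
      fun j q => Ideal.mem_iInf
    obtain ⟨j, hj⟩ := monotone_stabilizes_iff_noetherian.2 inferInstance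
      ⟨I, monotone_nat_of_le_succ fun j q hq => (hI _ _).2 fun g => by
        rw [pow_succ]; exact h3 _ g q ((hI _ _).1 hq)⟩
    obtain ⟨u, rfl⟩ := hx
    obtain ⟨q, e⟩ := exists_lr ((u ^ j)⁻¹).1 1 b
    have h4 : q ∈ I j := (hj (j + 1) j.le_succ).ge ((hI _ _).2 fun g => by
      rw [e, mul_one, pow_succ, mul_assoc, ← Units.val_pow_eq_pow_val, Units.inv_mul_cancel_left]
      exact hn g)
    refine h1 fun g hg => (h0 ⟨g, hg⟩ b).trans ?_
    have h5 := (hI _ _).1 h4 ⟨g, hg⟩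
    rwa [e, mul_one, ← Units.val_pow_eq_pow_val, Units.inv_mul_cancel_left] at h5
  obtain ⟨y, h4, h5⟩ := h2 (fun e => (x * ρ g) e.1 e.2) (fun q e => by
    simpa only [one_mul] using h3 1 g q fun g => by
      rw [one_mul]; exact (h0 g q).symm.trans (e _ g.2)) hg
  let z : Mt m Ω := of fun i j => y (i, j)
  obtain ⟨p, hp⟩ := (PF.det (PF.entry (n := m) (R := Ω))).sub (PF.const 1)
  have h6 : z.det = 1 := sub_eq_zero.1 ((hp z).trans (h4 p fun g hg =>
    (hp _).symm.trans (sub_eq_zero.2 (hd g hg))))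
  have h7 : IsUnit z := (isUnit_iff_isUnit_det z).2 (h6 ▸ isUnit_one)
  have h8 : ρ ⟨h7.unit, hc _ h4⟩ = x * ρ g :=
    Matrix.ext fun i j => (hP i j _).trans (h5 (i, j))
  exact ⟨⟨h7.unit, hc _ h4⟩ * g⁻¹, by
    rw [map_mul, h8, mul_assoc, ← map_mul, mul_inv_cancel, map_one, mul_one]⟩

section

variable {n : ℕ} {L Ω : Type} [Field L] [Field Ω]

theorem lr_X (a b : Mt n L) (i j : Fin n) :
    lr a b (X (i, j)) = (a.map C * (of fun u v => X (u, v)) * b.map C : Mt n (Pl n L)) i j := by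
  simp [lr, mul_apply]

theorem lr_lr {a b a' b' : Mt n L} (h : a * a' = 1) (h' : b' * b = 1) (p : Pl n L) :
    lr a' b' (lr a b p) = p := by
  refine DFunLike.congr_fun (?_ : (lr a' b').comp (lr a b) = AlgHom.id L _) p
  refine algHom_ext fun e => ?_
  have e1 : ∀ c : Mt n L, (c.map C : Mt n (Pl n L)).map (lr a' b') = c.map C := fun c =>
    Matrix.ext fun i j => algHom_C (lr a' b') (c i j)
  have e2 : (of fun u v => X (u, v) : Mt n (Pl n L)).map (lr a' b') = _ :=
    Matrix.ext fun i j => lr_X a' b' i j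
  have e3 : (a.map C * (of fun u v => X (u, v)) * b.map C : Mt n (Pl n L)).map (lr a' b') =
      of fun u v => X (u, v) := by
    rw [Matrix.map_mul, Matrix.map_mul, e1, e1, e2, ← mul_assoc, ← mul_assoc, mul_assoc _ _ (b.map C),
      ← Matrix.map_mul, ← Matrix.map_mul, h, h', Matrix.map_one _ C_0 C_1, one_mul, mul_one]
  exact (congrArg (lr a' b') (lr_X a b e.1 e.2)).trans (congrFun₂ e3 e.1 e.2)

theorem map_lr (f : L →+* Ω) (a b : Mt n L) (p : Pl n L) :
    map f (lr a b p) = lr (a.map f) (b.map f) (map f p) := by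
  refine DFunLike.congr_fun (?_ : (map f).comp (lr a b).toRingHom =
    (lr (a.map f) (b.map f)).toRingHom.comp (map f)) p
  refine ringHom_ext (fun r => ?_) fun ij => ?_ <;> simp [lr]

variable [Algebra L Ω] {G : Subgroup (GL (Fin n) Ω)}

theorem abs_cj (h : AbsSimple L G) (c : GL (Fin n) L) : AbsSimple L (cj (io L Ω n c) G) := by
  refine ⟨zcl_cj h.closed _, ?_, fun p hp => ?_, ?_, fun N h1 h2 h3 => ?_⟩
  · have := h.conn
    rw [show van (cj (io L Ω n c) G : Set (GL (Fin n) Ω)) = (van (G : Set (GL (Fin n) Ω))).comap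
      (lr (io L Ω n c).val (io L Ω n c)⁻¹.val) from Ideal.ext fun _ => mem_van_cj]
    infer_instance
  · rw [← lr_lr (io L Ω n c).mul_inv (io L Ω n c).mul_inv p]
    refine Ideal.mem_comap.1 (((h.defd.trans (Ideal.span_le.2 ?_) :
      van (G : Set (GL (Fin n) Ω)) ≤ Ideal.comap (lr (io L Ω n c)⁻¹.val (io L Ω n c).val) _))
      (mem_van_cj.1 hp))
    rintro _ ⟨hq, q, rfl⟩
    refine Ideal.mem_comap.2 <| Ideal.subset_span ⟨mem_van_cj.2 ?_, lr c⁻¹.val c.val q, (map_lr _ _ _ _).symm⟩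
    rw [lr_lr (io L Ω n c).inv_mul (io L Ω n c).inv_mul]
    exact hq
  · obtain ⟨g, hg, g', hg', e⟩ := h.ncomm
    exact ⟨_, ⟨g, hg, rfl⟩, _, ⟨g', hg', rfl⟩, fun e' => e ((MulAut.conj _).injective
      ((map_mul _ _ _).trans (e'.trans (map_mul _ _ _).symm)))⟩
  · have e : N = cj (io L Ω n c) (cj (io L Ω n c)⁻¹ N) := by rw [cj_cj, mul_inv_cancel, cj_one]
    refine (h.simple (cj (io L Ω n c)⁻¹ N)
      (fun x hx => conj_mem_cj.1 (h1 (by simpa using mem_cj.1 hx))) (zcl_cj h2 _)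
      fun g hg x hx => mem_cj.2 ?_).imp (fun e' => by rw [e, e']) fun hf => by
        rw [e]; exact hf.image _
    simpa [mul_assoc] using h3 _ (conj_mem_cj.2 hg) _ (mem_cj.1 hx)

theorem pts_cj (c : GL (Fin n) L) : pts L (cj (io L Ω n c) G) = cj c (pts L G) := by
  ext g
  rw [mem_cj]
  refine mem_cj.trans ?_
  rw [← map_inv]
  exact Iff.of_eq (congrArg (· ∈ G) (by rw [map_mul, map_mul]))

/-- the contraction of an extended ideal -/
theorem mem_of_map {σ : Type} {I : Ideal (MvPolynomial σ L)} {p : MvPolynomial σ L}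
    (h : map (algebraMap L Ω) p ∈ I.map (map (algebraMap L Ω))) : p ∈ I := by
  classical
  obtain ⟨l, hl⟩ := (Algebra.linearMap L Ω).exists_leftInverse_of_injective
    (LinearMap.ker_eq_bot.2 (algebraMap L Ω).injective)
  let Λ : MvPolynomial σ Ω → MvPolynomial σ L := fun a =>
    ∑ m ∈ a.support, monomial m (l (a.coeff m))
  have h1 : ∀ a m, (Λ a).coeff m = l (a.coeff m) := fun a m => by
    simp only [Λ, coeff_sum, coeff_monomial, Finset.sum_ite_eq']
    split_ifs with hm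
    · rfl
    · rw [notMem_support_iff.1 hm, map_zero]
  have h2 : ∀ a q, Λ (a * map (algebraMap L Ω) q) = Λ a * q := fun a q => by
    ext m
    rw [h1, coeff_mul, coeff_mul, map_sum]
    exact Finset.sum_congr rfl fun e _ => by
      rw [h1, coeff_map, mul_comm, ← Algebra.smul_def, map_smul, smul_eq_mul, mul_comm]
  have h3 : ∀ r ∈ I.map (map (algebraMap L Ω)), ∀ a, Λ (a * r) ∈ I := fun r hr => by
    induction hr using Submodule.span_induction with
    | mem x hx =>
      obtain ⟨q, hq, rfl⟩ := hx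
      exact fun a => h2 a q ▸ I.mul_mem_left _ hq
    | zero => exact fun a => by rw [mul_zero]; simp [Λ]
    | add x y _ _ hx hy =>
      intro a
      rw [show Λ (a * (x + y)) = Λ (a * x) + Λ (a * y) from MvPolynomial.ext _ _ fun m => by
        rw [coeff_add, h1, h1, h1, mul_add, coeff_add, map_add]]
      exact I.add_mem (hx a) (hy a)
    | smul c x _ hx => exact fun a => by rw [smul_eq_mul, ← mul_assoc]; exact hx _
  rw [show p = Λ (1 * map (algebraMap L Ω) p) from MvPolynomial.ext _ _ fun m => by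
    rw [h1, one_mul, coeff_map]; exact (LinearMap.congr_fun hl _).symm]
  exact h3 _ h 1

theorem vanish_up {k : Type} [Field k] [Algebra k L] [Algebra k Ω] [IsScalarTower k L Ω]
    (h : AbsSimple k G) :
    P092GV.vanish L G = (P092GV.vanish k G).map (map (algebraMap k L)) := by
  have e : ∀ p : Pl n k, map (algebraMap L Ω) (map (algebraMap k L) p) = map (algebraMap k Ω) p :=
    fun p => by rw [MvPolynomial.map_map, ← IsScalarTower.algebraMap_eq]
  refine le_antisymm (fun p hp => mem_of_map (Ω := Ω) ?_) (Ideal.map_le_iff_le_comap.2 fun p hp =>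
    P011I.mem_vanish.2 (by rw [e]; exact P011I.mem_vanish.1 hp))
  refine Ideal.span_le.2 ?_ (h.defd (P011I.mem_vanish.1 hp))
  rintro _ ⟨hq, q, rfl⟩
  rw [← e]
  exact Ideal.mem_map_of_mem _ (Ideal.mem_map_of_mem _ (P011I.mem_vanish.2 hq))

end

theorem upf : UPF := by
  refine ⟨fun k L Ω _ _ _ _ _ _ _ n G h => ⟨abs_base h, fun c => ⟨abs_cj (abs_base h) c, pts_cj c⟩,
    vanish_up h⟩, ?_⟩
  rintro F _ n G c D ⟨ψ, P, W, h1, h2, h3⟩
  refine ⟨(MulAut.conj c⁻¹).toMonoidHom.comp ψ, c⁻¹.1.map C * P * c.1.map C,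
    W.map (lr c.1 c⁻¹.1), fun g => ?_, fun g => ?_, ?_⟩
  · have e : ∀ a : Mt n F, (a.map C : Mt n (Pl D.n F)).map
        (aeval fun e : Fin D.n × Fin D.n => g.1.1 e.1 e.2) = a :=
      fun a => Matrix.ext fun i j =>
        algHom_C (aeval fun e : Fin D.n × Fin D.n => g.1.1 e.1 e.2) (a i j)
    rw [ap, Matrix.map_mul, Matrix.map_mul, e, e]
    show (c⁻¹ * ψ g * c⁻¹⁻¹).1 = _
    rw [inv_inv, Units.val_mul, Units.val_mul, h1]
    rfl
  · rw [← h2]
    refine Matrix.ext fun p q => (ev_lr c.1 c⁻¹.1 (c⁻¹ * ψ g * c⁻¹⁻¹).1 (W p q)).trans ?_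
    rw [← Units.val_mul, ← Units.val_mul, show c * (c⁻¹ * ψ g * c⁻¹⁻¹) * c⁻¹ = ψ g by group]
    rfl
  · rw [← MonoidHom.map_range]
    ext p
    refine (mem_van_cj (c := c⁻¹) (G := ψ.range)).trans ?_
    rw [h3, ← mem_van_cj, cj_cj, inv_mul_cancel, cj_one]

end Vale.Agent.P011IT
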