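import Vale.Agent.P011IT.Trf
import Vale.Agent.P011LT.Basic
import Vale.Agent.P092GV.StG

/-!
P011I (helper65): the groups of points of an absolutely simple group.
-/

set_option linter.all false

open Set Matrix

noncomputable section

namespace Vale.Agent.P011IT

open Vale.Agent.P092AG Vale.Agent.P092A2 Vale.Agent.P011L Vale.Agent.P011LT

variable {n : ℕ} {k K Ω : Type} [Field k] [Field K] [Field Ω] [Algebra k K] [Algebra k Ω]
  {𝔾 : Subgroup (GL (Fin n) K)}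

theorem ev_aeval (x : Mt n K) (p : Pl n k) : ev x (MvPolynomial.map (algebraMap k K) p) =
    MvPolynomial.aeval (fun e : Fin n × Fin n => x e.1 e.2) p := MvPolynomial.eval_map _ _ _

theorem Van_iff {p : Pl n k} :
    Van k 𝔾 p ↔ MvPolynomial.map (algebraMap k K) p ∈ van (𝔾 : Set (GL (Fin n) K)) :=
  forall₂_congr fun g _ => by rw [ev_aeval]

theorem mem_vanish {p : Pl n k} : p ∈ P092GV.vanish k 𝔾 ↔ Van k 𝔾 p := by
  refine ⟨fun h g hg => h _ ⟨g, hg, fun _ _ => rfl⟩, ?_⟩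
  rintro h x ⟨g, hg, a⟩
  obtain rfl : x = fun ij => g.1 ij.1 ij.2 := funext fun ij => a ij.1 ij.2
  exact h g hg

theorem vanish_eq : P092GV.vanish K 𝔾 = van (𝔾 : Set (GL (Fin n) K)) := by
  ext p
  rw [mem_vanish, Van_iff, Algebra.algebraMap_self, MvPolynomial.map_id]

theorem zcl_iff : P092GV.ZClosed 𝔾 ↔ ZCl (𝔾 : Set (GL (Fin n) K)) := by
  unfold P092GV.ZClosed
  rw [vanish_eq]
  rfl

/-- the two forms of the definition agree -/
theorem abs_iff : P092GV.AbsSimple k 𝔾 ↔ AbsSimple k 𝔾 := by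
  refine ⟨fun h => ⟨zcl_iff.1 h.closed, vanish_eq (𝔾 := 𝔾) ▸ h.connected, ?_, h.noncomm,
    fun N a b c => (h.simple N a (zcl_iff.2 b) c).imp_right fun d => d⟩,
    fun h => ⟨zcl_iff.2 h.closed, vanish_eq (𝔾 := 𝔾) ▸ h.conn, ?_, h.ncomm,
    fun N a b c => (h.simple N a (zcl_iff.1 b) c).imp_right fun d => d⟩⟩
  · refine (vanish_eq.symm.trans h.defined).le.trans (Ideal.span_mono ?_)
    rintro _ ⟨p, hp, rfl⟩
    exact ⟨Van_iff.1 (mem_vanish.1 hp), p, rfl⟩
  · rw [vanish_eq]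
    refine le_antisymm (h.defd.trans (Ideal.span_le.2 ?_))
      (Ideal.map_le_iff_le_comap.2 fun p hp => Van_iff.1 (mem_vanish.1 hp))
    rintro _ ⟨hp, p, rfl⟩
    exact Ideal.mem_map_of_mem _ (mem_vanish.2 (Van_iff.2 hp))

/-- a point of the zero set of the equations over `k` satisfies all equations -/
theorem ev_Zs (h : AbsSimple k 𝔾) [Algebra K Ω] [IsScalarTower k K Ω] {g : GL (Fin n) Ω}
    (hg : g ∈ Zs k 𝔾 Ω) {p : Pl n K} (hp : p ∈ van (𝔾 : Set (GL (Fin n) K))) :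
    ev (g : Mt n Ω) (MvPolynomial.map (algebraMap K Ω) p) = 0 := by
  refine (Ideal.span_le (I := RingHom.ker ((ev (g : Mt n Ω)).comp
    (MvPolynomial.map (algebraMap K Ω))))).2 ?_ (h.defd hp)
  rintro _ ⟨hq, q, rfl⟩
  show ev _ (MvPolynomial.map _ (MvPolynomial.map _ q)) = 0
  rw [MvPolynomial.map_map, ← IsScalarTower.algebraMap_eq, ev_aeval]
  exact hg q (Van_iff.2 hq)

theorem Zs_bc (h : AbsSimple k 𝔾) [Algebra K Ω] [IsScalarTower k K Ω] :
    Zs k 𝔾 Ω = (bc Ω h : Set (GL (Fin n) Ω)) := by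
  refine Set.ext fun g => ⟨fun hg p hp => ?_, fun hg p hp => ?_⟩
  · rw [Subgroup.coe_map, van_io] at hp
    exact (Ideal.map_le_iff_le_comap (K := RingHom.ker (ev (g : Mt n Ω)))).2
      (fun q hq => ev_Zs h hg hq) hp
  · rw [← ev_aeval, IsScalarTower.algebraMap_eq k K Ω, ← MvPolynomial.map_map]
    exact hg _ (map_van (Van_iff.1 hp))

theorem Pts_bc (h : AbsSimple k 𝔾) [Algebra K Ω] [IsScalarTower k K Ω] :
    Pts k 𝔾 Ω = bc Ω h :=
  (congrArg Subgroup.closure (Zs_bc h)).trans (Subgroup.closure_eq _)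

theorem Pts_self (h : AbsSimple k 𝔾) : Pts k 𝔾 K = 𝔾 :=
  le_antisymm ((Subgroup.closure_le _).2 fun g hg => h.closed g fun p hp => by
    have := ev_Zs (Ω := K) h hg hp
    rwa [Algebra.algebraMap_self, MvPolynomial.map_id] at this) fun g hg => Zs_le (Zs_of_mem hg)

theorem van_map {S : Set (GL (Fin n) K)} [Algebra K Ω] {p : Pl n K} :
    MvPolynomial.map (algebraMap K Ω) p ∈ van (io K Ω n '' S) ↔ p ∈ van S := by
  refine ⟨fun a g hg => ?_, map_van⟩
  have e := a (io K Ω n g) ⟨g, hg, rfl⟩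
  rwa [io_val, ev_map, map_eq_zero] at e

theorem Van_bc (h : AbsSimple k 𝔾) [Algebra K Ω] [IsScalarTower k K Ω] {p : Pl n k} :
    Van k (bc Ω h) p ↔ Van k 𝔾 p := by
  refine Van_iff.trans (Iff.trans ?_ Van_iff.symm)
  rw [coe_bc, van_zcl, IsScalarTower.algebraMap_eq k K Ω, ← MvPolynomial.map_map]
  exact van_map

theorem Pts_Pts (h : AbsSimple k 𝔾) [Algebra K Ω] [IsScalarTower k K Ω] (L : Type) [Field L]
    [Algebra k L] : Pts k (Pts k 𝔾 Ω) L = Pts k 𝔾 L := by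
  rw [Pts_bc h]
  simp only [Pts, Van_bc h]

/-- **TRF** for the groups `Pts` -/
theorem abs_Pts [IsAlgClosed K] [Algebra K Ω] [IsScalarTower k K Ω] (h : AbsSimple k 𝔾) :
    AbsSimple k (Pts k 𝔾 Ω) := Pts_bc (Ω := Ω) h ▸ abs_bc h

/-- the base field may be enlarged -/
theorem abs_base {l : Type} [Field l] [Algebra k l] [Algebra l K] [IsScalarTower k l K]
    (h : AbsSimple k 𝔾) : AbsSimple l 𝔾 :=
  ⟨h.closed, h.conn, h.defd.trans (Ideal.span_mono (by
    rintro _ ⟨hp, p, rfl⟩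
    exact ⟨hp, MvPolynomial.map (algebraMap k l) p, by
      rw [MvPolynomial.map_map, ← IsScalarTower.algebraMap_eq]⟩)), h.ncomm, h.simple⟩

end Vale.Agent.P011IT
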